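import Vale.Agent.H48.NS.CRat

/-!
Computable rational approximations of the exponential at rational points that are at most 1
(TASK EXP of the P113 development).
-/

namespace Vale.Agent.H48

open Vale.Agent.H30

section
variable {α : Type} [Primcodable α]

@[fun_prop] theorem cpt_factorial {f : α → ℕ} (hf : Computable f) :
    Computable (fun x => (f x).factorial) := by
  have h : Computable (fun x => Nat.rec (motive := fun _ => ℕ) 1 (fun k st => (k + 1) * st) (f x)) :=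
    cpt_rec hf (by fun_prop) (by fun_prop)
  refine h.of_eq fun x => ?_
  generalize f x = m
  induction m with
  | zero => rfl
  | succ k ih => simp only [ih, Nat.factorial_succ]

@[fun_prop] theorem cpt_pow {f g : α → ℕ} (hf : Computable f) (hg : Computable g) :
    Computable (fun x => f x ^ g x) := by
  have h : Computable (fun x => Nat.rec (motive := fun _ => ℕ) 1 (fun _ st => st * f x) (g x)) :=
    cpt_rec hg (by fun_prop) (by fun_prop)
  refine h.of_eq fun x => ?_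
  generalize g x = m
  induction m with
  | zero => rfl
  | succ k ih => simp only [ih, pow_succ]

end

/-- the number of Taylor terms used for accuracy index `p.2` at the point `p.1` -/
def expN (p : (ℕ × ℕ × ℕ) × ℕ) : ℕ := 2 * (p.1.2.1 + 1) * 4 ^ (p.1.2.1 + 1) * (p.2 + 1)

/-- the rational approximation: a Taylor polynomial at the point divided by `m`, to the power `m` -/
def expV (p : (ℕ × ℕ × ℕ) × ℕ) : ℚ :=
  (∑ i ∈ Finset.range (expN p),
    (ratOf p.1 / ((p.1.2.1 + 1 : ℕ) : ℚ)) ^ i / ((i.factorial : ℕ) : ℚ)) ^ (p.1.2.1 + 1)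

theorem expV_crat : CRat expV := by
  have h1 : CRat (fun pp : ((ℕ × ℕ × ℕ) × ℕ) × ℕ =>
      ratOf pp.1.1 / ((pp.1.1.2.1 + 1 : ℕ) : ℚ)) :=
    CRat.div
      (CRat.comp CRat.ratOf (g := fun pp : ((ℕ × ℕ × ℕ) × ℕ) × ℕ => pp.1.1) (by fun_prop))
      (CRat.natCast (n := fun pp : ((ℕ × ℕ × ℕ) × ℕ) × ℕ => pp.1.1.2.1 + 1) (by fun_prop))
  have h2 : CRat (fun pp : ((ℕ × ℕ × ℕ) × ℕ) × ℕ =>
      (ratOf pp.1.1 / ((pp.1.1.2.1 + 1 : ℕ) : ℚ)) ^ pp.2) :=
    CRat.pow h1 (n := fun pp => pp.2) (by fun_prop)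
  have h3 : CRat (fun pp : ((ℕ × ℕ × ℕ) × ℕ) × ℕ =>
      (ratOf pp.1.1 / ((pp.1.1.2.1 + 1 : ℕ) : ℚ)) ^ pp.2 / ((pp.2.factorial : ℕ) : ℚ)) :=
    CRat.div h2 (CRat.natCast (n := fun pp : ((ℕ × ℕ × ℕ) × ℕ) × ℕ => pp.2.factorial)
      (by fun_prop))
  have hN : Computable expN := by
    unfold expN
    fun_prop
  have h4 : CRat (fun p : (ℕ × ℕ × ℕ) × ℕ => ∑ i ∈ Finset.range (expN p),
      (ratOf p.1 / ((p.1.2.1 + 1 : ℕ) : ℚ)) ^ i / ((i.factorial : ℕ) : ℚ)) :=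
    CRat.sum (r := fun (p : (ℕ × ℕ × ℕ) × ℕ) (i : ℕ) =>
      (ratOf p.1 / ((p.1.2.1 + 1 : ℕ) : ℚ)) ^ i / ((i.factorial : ℕ) : ℚ)) h3 hN
  exact CRat.pow h4 (n := fun p : (ℕ × ℕ × ℕ) × ℕ => p.1.2.1 + 1) (by fun_prop)

theorem pow_sub_pow_bound (x s C : ℝ) (hC : 1 ≤ C) (hx : |x| ≤ C) (hs : |s| ≤ C) (m : ℕ) :
    |x ^ m - s ^ m| ≤ m * C ^ m * |x - s| := by
  induction m with
  | zero => simp
  | succ k ih =>
    have e : x ^ (k + 1) - s ^ (k + 1) = x * (x ^ k - s ^ k) + (x - s) * s ^ k := by ring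
    have h1 : |x * (x ^ k - s ^ k)| ≤ C * (k * C ^ k * |x - s|) := by
      rw [abs_mul]
      exact mul_le_mul hx ih (abs_nonneg _) (by linarith)
    have h2 : |(x - s) * s ^ k| ≤ |x - s| * C ^ k := by
      rw [abs_mul, abs_pow]
      exact mul_le_mul_of_nonneg_left (pow_le_pow_left₀ (abs_nonneg _) hs k) (abs_nonneg _)
    have h3 : C ^ k ≤ C ^ (k + 1) := pow_le_pow_right₀ hC (Nat.le_succ k)
    have h4 : 0 ≤ |x - s| := abs_nonneg _
    have h5 : |x - s| * C ^ k ≤ |x - s| * C ^ (k + 1) := mul_le_mul_of_nonneg_left h3 h4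
    have e2 : C * (k * C ^ k * |x - s|) = k * C ^ (k + 1) * |x - s| := by ring
    calc |x ^ (k + 1) - s ^ (k + 1)| = |x * (x ^ k - s ^ k) + (x - s) * s ^ k| := by rw [e]
      _ ≤ |x * (x ^ k - s ^ k)| + |(x - s) * s ^ k| := abs_add_le _ _
      _ ≤ C * (k * C ^ k * |x - s|) + |x - s| * C ^ k := add_le_add h1 h2
      _ ≤ ((k + 1 : ℕ) : ℝ) * C ^ (k + 1) * |x - s| := by
        push_cast
        linarith

theorem exp_approx : ∃ A : (ℕ × ℕ × ℕ) → ℕ → ℕ × ℕ × ℕ, Computable₂ A ∧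
    ∀ (q : ℕ × ℕ × ℕ) (k : ℕ), qv q ≤ 1 →
      |Real.exp (qv q) - qv (A q k)| ≤ 1 / ((k : ℝ) + 1) := by
  obtain ⟨R, hR, hRv⟩ := expV_crat
  refine ⟨fun q k => R (q, k), hR.comp (Computable.fst.pair Computable.snd), fun q k hq => ?_⟩
  rw [qv_eq_ratOf (R (q, k)), hRv]
  obtain ⟨a, b, d⟩ := q
  -- the scaling factor, the scaled point and the number of terms
  have hm : (0 : ℝ) < ((b + 1 : ℕ) : ℝ) := by positivity
  have hyl : -(b : ℝ) ≤ qv (a, b, d) := by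
    simp only [qv]
    rw [le_div_iff₀ (by positivity)]
    have h1 : (0 : ℝ) ≤ (a : ℝ) := Nat.cast_nonneg a
    have h2 : (0 : ℝ) ≤ (b : ℝ) * (d : ℝ) := by positivity
    nlinarith
  have hz : |qv (a, b, d) / ((b + 1 : ℕ) : ℝ)| ≤ 1 := by
    rw [abs_le]
    constructor
    · rw [le_div_iff₀ hm]
      push_cast
      linarith
    · rw [div_le_iff₀ hm]
      push_cast
      have : (0 : ℝ) ≤ (b : ℝ) := Nat.cast_nonneg b
      linarith
  have hn0 : 0 < expN ((a, b, d), k) := by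
    unfold expN
    positivity
  have hV : ((expV ((a, b, d), k) : ℚ) : ℝ)
      = (∑ i ∈ Finset.range (expN ((a, b, d), k)),
          (qv (a, b, d) / ((b + 1 : ℕ) : ℝ)) ^ i / (i.factorial : ℝ)) ^ (b + 1) := by
    simp only [expV]
    push_cast
    rw [← qv_eq_ratOf]
  have hexp : Real.exp (qv (a, b, d))
      = Real.exp (qv (a, b, d) / ((b + 1 : ℕ) : ℝ)) ^ (b + 1) := by
    rw [← Real.exp_nat_mul]
    congr 1
    field_simp
  -- the inner error
  have hb := Real.exp_bound hz hn0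
  set z : ℝ := qv (a, b, d) / ((b + 1 : ℕ) : ℝ) with hzdef
  set n : ℕ := expN ((a, b, d), k) with hndef
  set S : ℝ := ∑ i ∈ Finset.range n, z ^ i / (i.factorial : ℝ) with hSdef
  have hnR : (0 : ℝ) < (n : ℝ) := by exact_mod_cast hn0
  have hfac : (n : ℝ) ≤ (n.factorial : ℝ) := by exact_mod_cast Nat.self_le_factorial n
  have hδ : |Real.exp z - S| ≤ 2 / (n : ℝ) := by
    refine hb.trans ?_
    have h1 : |z| ^ n ≤ 1 := pow_le_one₀ (abs_nonneg z) hz
    have h2 : ((n.succ : ℕ) : ℝ) / ((n.factorial : ℝ) * (n : ℝ)) ≤ 2 / (n : ℝ) := by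
      rw [div_le_div_iff₀ (by positivity) hnR]
      push_cast
      have h3 : (1 : ℝ) ≤ (n : ℝ) := by exact_mod_cast hn0
      nlinarith
    calc |z| ^ n * (((n.succ : ℕ) : ℝ) / ((n.factorial : ℝ) * (n : ℝ)))
        ≤ 1 * (2 / (n : ℝ)) := mul_le_mul h1 h2 (by positivity) zero_le_one
      _ = 2 / (n : ℝ) := one_mul _
  have hnval : (n : ℝ) = 2 * ((b : ℝ) + 1) * 4 ^ (b + 1) * ((k : ℝ) + 1) := by
    rw [hndef]
    unfold expN
    push_cast
    ring
  have h2n : 2 / (n : ℝ) ≤ 1 := by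
    rw [div_le_one hnR, hnval]
    have h1 : (1 : ℝ) ≤ (b : ℝ) + 1 := by
      have : (0 : ℝ) ≤ (b : ℝ) := Nat.cast_nonneg b
      linarith
    have h2 : (1 : ℝ) ≤ 4 ^ (b + 1) := one_le_pow₀ (by norm_num)
    have h3 : (1 : ℝ) ≤ (k : ℝ) + 1 := by
      have : (0 : ℝ) ≤ (k : ℝ) := Nat.cast_nonneg k
      linarith
    have h4 : (1 : ℝ) ≤ ((b : ℝ) + 1) * 4 ^ (b + 1) := one_le_mul_of_one_le_of_one_le h1 h2
    have h5 : (1 : ℝ) ≤ ((b : ℝ) + 1) * 4 ^ (b + 1) * ((k : ℝ) + 1) :=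
      one_le_mul_of_one_le_of_one_le h4 h3
    linarith
  have hez : Real.exp z ≤ 3 := by
    have h1 : z ≤ 1 := (abs_le.1 hz).2
    have h2 : Real.exp z ≤ Real.exp 1 := Real.exp_le_exp.2 h1
    linarith [Real.exp_one_lt_three]
  have hez0 : 0 < Real.exp z := Real.exp_pos z
  have hxC : |Real.exp z| ≤ 4 := by
    rw [abs_of_pos hez0]
    linarith
  have hsC : |S| ≤ 4 := by
    have h1 := abs_le.1 (hδ.trans h2n)
    rw [abs_le]
    constructor <;> linarith [h1.1, h1.2]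
  have key := pow_sub_pow_bound (Real.exp z) S 4 (by norm_num) hxC hsC (b + 1)
  rw [hV, hexp]
  refine key.trans ?_
  have h6 : ((b + 1 : ℕ) : ℝ) * 4 ^ (b + 1) * |Real.exp z - S|
      ≤ ((b + 1 : ℕ) : ℝ) * 4 ^ (b + 1) * (2 / (n : ℝ)) :=
    mul_le_mul_of_nonneg_left hδ (by positivity)
  refine h6.trans (le_of_eq ?_)
  rw [hnval]
  push_cast
  field_simp

end Vale.Agent.H48
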